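import Claimed.Agent.R316.Pack031
import Claimed.Agent.R316.BR.Main
import Claimed.Agent.R316.Pack026_2
import Claimed.Agent.R316.S2.Main
import Claimed.Agent.R316.Pack027
import Claimed.Agent.R316.B9.LocalReg
import Claimed.Agent.R316.B9.ContA
import Claimed.Agent.R316.B8M.Export
import Claimed.Agent.R316.S5.Main
import Claimed.Agent.R316.S6.GMain
import Claimed.Agent.R316.S7.H1b.Main
import Claimed.Agent.R316.S7.SD.Main
import Claimed.Agent.R316.Pack030
import Claimed.Agent.R316.S7.SC.Main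
import Claimed.Agent.R316.S7.L6.Main
import Claimed.Agent.R316.S9.Bridge
import Claimed.Agent.R316.S10.Main
import Claimed.Agent.R316.S4.Cot
import Claimed.Agent.R316.S7.UC.Main
import Claimed.Agent.R316.S7.UC.Local

/-!
# Row 316, top level: FINAL ASSEMBLY (compile-checked closure of the whole row)

Owners: helper84, helper258.  `main_EN` proves `BR.StMainEN` (the abstract main theorem for ambient spaces `ℝ^N`) from the section theorems which are ALREADY on main
(`prelimData`, `heatData_exists`, `S3.heatFacts`, `S3.thm31`, `S3.prop35`, `B8M.stLinExist`, `B8M.stQuasiExist`, `B8M.stLinLocalReg`, `B9.stCRLocalReg`, `B9.stContinuation`, `disc_inequality`, `S6.joint_positivity`, `st71`, `SD.st73`, `st74a`, `st74b`,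
`st75`, `st76`, `st77`, `S9.st81`, `st9`, `stCotangentExists`, `st72`, `st72a`): EVERY top level statement has a theorem on main now (the structure `Missing` is gone).
`yau` is the statement of `S0572` verbatim; when the closure is `sorry`-free, `Claimed/Agent/S0572.lean` is `yau n hn N M …`.
-/

set_option autoImplicit false
open scoped ContDiff ComplexOrder Topology
open MeasureTheory Filter

namespace Claimed.Agent.R316

/-- **the abstract main theorem.** -/
theorem main_EN : BR.StMainEN := by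
  intro n N 𝓜 g I
  obtain ⟨o, ho⟩ := I.conn.nonempty
  obtain ⟨PD⟩ := prelimData I ho
  obtain ⟨HD⟩ := heatData_exists (anaSetting_of_initialData I) (bisecNonneg_of_bisecPos I.bisec)
  obtain ⟨D⟩ := S3.thm31 B9.stCRLocalReg (B9.stContinuation B9.stCRLocalReg) I ho PD
  obtain ⟨hT, hC⟩ := S3.prop35 B8M.stLinExist B8M.stQuasiExist B8M.stLinLocalReg I ho HD.vol (S3.heatFacts I ho PD HD) PD D
  obtain ⟨𝒴, hY⟩ := S4.stCotangentExists (BR.EN N) (Fin n) 𝓜
  have hD := disc_inequality I ho PD D hT hY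
  have hJ : StJointPositivity D := S6.joint_positivity D I hY hD hC
  exact bihol_of_jointPositivity I ho D hJ (st71 D) (st72 D) (st72a D) SD.st73
    (st74a D) (st74b D) (st75 D) st76 (st77 D) S9.st81 (st9 𝓜 g o)

/-- Newlander-Nirenberg for the embedded Kaehler manifold (package B4). -/
theorem stNN : BR.StNN := by
  intro n N M J hn hsub hJ p hp
  obtain ⟨Φ, U, h1, h2, h3⟩ := B4.exists_holParam hn hJ hsub hp
  exact ⟨Φ, U, ⟨h1, h3⟩, h2⟩

open Claims.C0500 in
/-- **the statement of `S0572`.** -/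
theorem yau (n : ℕ) (hn : 1 ≤ n) (N : ℕ) (M : Set (EuclideanSpace ℝ (Fin N)))
    (hclosed : IsClosed M) (hnoncpt : ¬ IsCompact M) (hconn : IsConnected M)
    (hsub : ∀ p ∈ M, ∃ (ψ : EuclideanSpace ℝ (Fin (2 * n)) → EuclideanSpace ℝ (Fin N))
      (U : Set (EuclideanSpace ℝ (Fin (2 * n)))), IsLocalParam M ψ U ∧ p ∈ ψ '' U)
    (J : EuclideanSpace ℝ (Fin N) → EuclideanSpace ℝ (Fin N) →L[ℝ] EuclideanSpace ℝ (Fin N))
    (hJ : IsKahlerEmbedded n M J)
    (hbisec : ∀ (ψ : EuclideanSpace ℝ (Fin (2 * n)) → EuclideanSpace ℝ (Fin N))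
      (U : Set (EuclideanSpace ℝ (Fin (2 * n)))), IsLocalParam M ψ U → ∀ u ∈ U,
        ∀ v w v' w' : EuclideanSpace ℝ (Fin (2 * n)), v ≠ 0 → w ≠ 0 →
          fderiv ℝ ψ u v' = J (ψ u) (fderiv ℝ ψ u v) →
          fderiv ℝ ψ u w' = J (ψ u) (fderiv ℝ ψ u w) →
          0 < inner ℝ (secondFund ψ u v' w') (secondFund ψ u v w) -
            inner ℝ (secondFund ψ u v w') (secondFund ψ u v' w)) :
    ∃ F : EuclideanSpace ℝ (Fin N) → EuclideanSpace ℂ (Fin n),
      Set.BijOn F M Set.univ ∧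
      ∀ (ψ : EuclideanSpace ℝ (Fin (2 * n)) → EuclideanSpace ℝ (Fin N))
        (U : Set (EuclideanSpace ℝ (Fin (2 * n)))), IsLocalParam M ψ U →
          ContDiffOn ℝ ∞ (F ∘ ψ) U ∧ ∀ u ∈ U,
            Function.Injective (fderiv ℝ (F ∘ ψ) u) ∧
            ∀ v v' : EuclideanSpace ℝ (Fin (2 * n)),
              fderiv ℝ ψ u v' = J (ψ u) (fderiv ℝ ψ u v) →
                fderiv ℝ (F ∘ ψ) u v' = Complex.I • fderiv ℝ (F ∘ ψ) u v :=
  BR.bridge main_EN stNN n hn N M hclosed hnoncpt hconn hsub J hJ hbisec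

end Claimed.Agent.R316
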